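import Vale.Agent.P034.MathlibUsed

namespace Vale.Agent.P034

/-- The finite family `G` covers `F`: every member of `F` contains some member of `G`. -/
def Covers {X : Type*} (G : Finset (Finset X)) (F : Set (Finset X)) : Prop :=
  ∀ H ∈ F, ∃ S ∈ G, S ⊆ H

/-- The cost `c_p(G)` of a family `G` at `p`. -/
noncomputable def coverCost {X : Type*} (p : ℝ) (G : Finset (Finset X)) : ℝ :=
  ∑ S ∈ G, p ^ S.card

/-- `F` is `p`-small: some cover has cost at most `1/2` at `p`. -/
def IsSmall {X : Type*} (p : ℝ) (F : Set (Finset X)) : Prop :=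
  ∃ G : Finset (Finset X), Covers G F ∧ coverCost p G ≤ 1 / 2

/-- `g` is a fractional cover of `F`. -/
def IsFracCover {X : Type*} (g : Finset X → ℝ) (F : Set (Finset X)) : Prop :=
  (∀ S, 0 ≤ g S ∧ g S ≤ 1) ∧ ∀ H ∈ F, 1 ≤ ∑ S ∈ H.powerset, g S

/-- The cost `w(g,p)` of `g` at `p`. -/
noncomputable def fracCost {X : Type*} [Fintype X] (g : Finset X → ℝ) (p : ℝ) : ℝ :=
  ∑ S : Finset X, g S * p ^ S.card

/-- The `p` in `[0,1]` for which `F` is `p`-small. -/
def smallParams {X : Type*} (F : Set (Finset X)) : Set ℝ :=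
  {p | 0 ≤ p ∧ p ≤ 1 ∧ IsSmall p F}

/-- The `p` in `[0,1]` for which `F` has a fractional cover of cost at most `1/2` at `p`. -/
def fracParams {X : Type*} [Fintype X] (F : Set (Finset X)) : Set ℝ :=
  {p | 0 ≤ p ∧ p ≤ 1 ∧ ∃ g : Finset X → ℝ, IsFracCover g F ∧ fracCost g p ≤ 1 / 2}

/-- The (integral) expectation threshold. -/
noncomputable def expThreshold {X : Type*} (F : Set (Finset X)) : ℝ :=
  sSup (smallParams F)

/-- The fractional expectation threshold. -/
noncomputable def fracExpThreshold {X : Type*} [Fintype X] (F : Set (Finset X)) : ℝ :=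
  sSup (fracParams F)

end Vale.Agent.P034
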